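import Crest.Agent.N250.Gc.Lin
import Crest.Agent.N250.Gc.Gr
import Crest.Agent.N250.Wt.AA3

-- ▼ part N250/Nq/Alg
section

/-!
# Row 250 (helper71): the core nonlinearity as a rational function of weighted jets
-/

set_option autoImplicit false
open Filter Topology

noncomputable section

namespace Crest.Agent.N250.Nq

open Gc

/-- weighted jets: `B = ρ D n`, `j0 = u / ρ`, `j1 = D u`, `j2 = ρ D D u`, `V1 = ρ D V`,
`V2 = ρ² D D V`, `Vd = ρ² dr V`, `y1 = D y`, `y2 = ρ D D y`, `yd = ρ (dr y - y)`, `f0 = ρ φ`,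
`f1 = ρ² D φ`, for the map `x + y + u V` and the multiplier function `φ` -/
structure Fl (R : Type) where
  n : Fin 3 → R
  B : Fin 3 → Fin 3 → R
  j0 : R
  j1 : Fin 3 → R
  j2 : Fin 3 → Fin 3 → R
  V : Fin 3 → R
  V1 : Fin 3 → Fin 3 → R
  V2 : Fin 3 → Fin 3 → Fin 3 → R
  Vd : Fin 3 → R
  y1 : Fin 3 → Fin 3 → R
  y2 : Fin 3 → Fin 3 → Fin 3 → R
  yd : Fin 3 → R
  f0 : R
  f1 : Fin 3 → R

namespace Fl

variable {R : Type} [CommRing R] (F : Fl R)

/-- first derivatives of the map -/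
def J (a c : Fin 3) : R := P0 F.n a c + (F.y1 a c + (F.j1 a * F.V c + F.j0 * F.V1 a c))

/-- `ρ` times the second derivatives -/
def K (a b c : Fin 3) : R := K0 F.n F.B a b c + (F.y2 a b c +
  (F.j2 a b * F.V c + F.j1 b * F.V1 a c + F.j1 a * F.V1 b c + F.j0 * F.V2 a b c))

/-- normal -/
def N : Fin 3 → R := Nv F.n F.J

/-- squared density -/
def G : R := G2 F.n F.J

/-- `⟨N, V⟩` -/
def NV : R := dot F.N F.V

/-- `1 - u φ` -/
def d3 : R := 1 - F.j0 * F.f0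

/-- drift numerator -/
def E2 : R := 2 * (∑ a, F.B a a) * dot F.n F.N - F.j0 * dot F.Vd F.N - dot F.yd F.N

/-- multiplier numerator -/
def E3 : R := F.G * F.f0 - ∑ a, dot (Wv F.J a) F.V * (F.j1 a * F.f0 + F.j0 * F.f1 a)

/-- `ρ (2 EQ - (dr u - u))` -/
def E : R := 2 * HP F.n F.J F.K * Ring.inverse (F.G * F.NV) - F.E2 * Ring.inverse F.NV
  - 2 * F.E3 * Ring.inverse (F.NV * F.NV * F.d3)

/-- the denominators are invertible -/
structure U : Prop where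
  G : IsUnit F.G
  NV : IsUnit F.NV
  d3 : IsUnit F.d3

variable {R' : Type} [CommRing R'] (φ : R →+* R')

/-- image under a ring homomorphism -/
def map : Fl R' where
  n a := φ (F.n a)
  B a b := φ (F.B a b)
  j0 := φ F.j0
  j1 a := φ (F.j1 a)
  j2 a b := φ (F.j2 a b)
  V c := φ (F.V c)
  V1 a c := φ (F.V1 a c)
  V2 a b c := φ (F.V2 a b c)
  Vd c := φ (F.Vd c)
  y1 a c := φ (F.y1 a c)
  y2 a b c := φ (F.y2 a b c)
  yd c := φ (F.yd c)
  f0 := φ F.f0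
  f1 a := φ (F.f1 a)

theorem map_J : (F.map φ).J = fun a c => φ (F.J a c) := by
  funext a c
  simp only [J, map, P0, map_add, map_sub, map_mul, apply_ite φ, map_one, map_zero]

theorem map_K : (F.map φ).K = fun a b c => φ (F.K a b c) := by
  funext a b c
  simp only [K, map, K0, map_add, map_sub, map_mul, map_neg]

theorem map_N : (F.map φ).N = fun c => φ (F.N c) := by
  funext c
  simp only [N, map_J, map_Nv]; rfl

theorem map_G : (F.map φ).G = φ F.G := by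
  simp only [G, map_J, map_G2]; rfl

theorem map_NV : (F.map φ).NV = φ F.NV := by
  simp only [NV, map_N, map_dot]; rfl

theorem map_d3 : (F.map φ).d3 = φ F.d3 := by
  simp only [d3, map, map_sub, map_mul, map_one]

theorem map_E2 : (F.map φ).E2 = φ F.E2 := by
  simp only [E2, map_N, map_dot, map_sub, map_mul, map_sum, map_ofNat]; rfl

theorem map_E3 : (F.map φ).E3 = φ F.E3 := by
  simp only [E3, map_G, map_J, map_dot, map_sub, map_mul, map_sum, map_add, map_Wv]; rfl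

theorem map_HP' : HP (F.map φ).n (F.map φ).J (F.map φ).K = φ (HP F.n F.J F.K) := by
  simp only [map_J, map_K, map_HP]; rfl

theorem map_inv {a : R} (h : IsUnit a) : φ (Ring.inverse a) = Ring.inverse (φ a) := by
  refine ((Ring.eq_mul_inverse_iff_mul_eq _ 1 _ (h.map φ)).2 ?_).trans (one_mul _)
  rw [← map_mul, Ring.inverse_mul_cancel _ h, map_one]

variable {F}

theorem U.map (h : F.U) : (F.map φ).U :=
  ⟨by rw [map_G]; exact h.G.map φ, by rw [map_NV]; exact h.NV.map φ,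
    by rw [map_d3]; exact h.d3.map φ⟩

theorem U.map_E (h : F.U) : (F.map φ).E = φ F.E := by
  simp only [E, map_HP', map_G, map_NV, map_d3, map_E2, map_E3, map_sub, map_mul, map_ofNat,
    map_inv φ (h.G.mul h.NV), map_inv φ h.NV, map_inv φ ((h.NV.mul h.NV).mul h.d3)]

/-- the base point -/
structure Bp (F : Fl R) : Prop where
  sh : Sh F.n F.B
  nV : dot F.n F.V = 1
  j0 : F.j0 = 0
  j1 : ∀ a, F.j1 a = 0
  j2 : ∀ a b, F.j2 a b = 0
  y1 : ∀ a c, F.y1 a c = 0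
  y2 : ∀ a b c, F.y2 a b c = 0
  yd : ∀ c, F.yd c = 0
  f0 : F.f0 = 0

namespace Bp

variable (h : F.Bp)
include h

theorem J : F.J = P0 F.n := by
  funext a c
  simp [Fl.J, h.j0, h.j1, h.y1]

theorem K : F.K = K0 F.n F.B := by
  funext a b c
  simp [Fl.K, h.j0, h.j1, h.j2, h.y2]

theorem N : F.N = F.n := by rw [Fl.N, h.J, Nv_P0]
theorem G : F.G = 1 := by rw [Fl.G, h.J, G2_P0 h.sh.nn]
theorem NV : F.NV = 1 := by rw [Fl.NV, h.N, h.nV]
theorem d3 : F.d3 = 1 := by simp [Fl.d3, h.j0]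

theorem E : F.E = 0 := by
  have : dot F.n F.n = 1 := h.sh.nn
  simp only [Fl.E, E2, E3, h.J, h.K, h.N, h.G, h.NV, h.d3, h.sh.HP_P0, h.j0, h.f0, this]
  simp [dot, h.yd]

end Bp

end Fl

section Hol

variable {A : Type} [NormedCommRing A] [NormedAlgebra ℂ A] [CompleteSpace A]
  {W : Type} [NormedAddCommGroup W] [NormedSpace ℂ W]

/-- a family of jets, differentiable at `z` -/
structure DF (F : W → Fl A) (n : Fin 3 → A) (z : W) : Prop where
  n : ∀ v, (F v).n = n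
  B : ∀ a b, DifferentiableAt ℂ (fun v => (F v).B a b) z
  j0 : DifferentiableAt ℂ (fun v => (F v).j0) z
  j1 : ∀ a, DifferentiableAt ℂ (fun v => (F v).j1 a) z
  j2 : ∀ a b, DifferentiableAt ℂ (fun v => (F v).j2 a b) z
  V : ∀ c, DifferentiableAt ℂ (fun v => (F v).V c) z
  V1 : ∀ a c, DifferentiableAt ℂ (fun v => (F v).V1 a c) z
  V2 : ∀ a b c, DifferentiableAt ℂ (fun v => (F v).V2 a b c) z
  Vd : ∀ c, DifferentiableAt ℂ (fun v => (F v).Vd c) z
  y1 : ∀ a c, DifferentiableAt ℂ (fun v => (F v).y1 a c) z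
  y2 : ∀ a b c, DifferentiableAt ℂ (fun v => (F v).y2 a b c) z
  yd : ∀ c, DifferentiableAt ℂ (fun v => (F v).yd c) z
  f0 : DifferentiableAt ℂ (fun v => (F v).f0) z
  f1 : ∀ a, DifferentiableAt ℂ (fun v => (F v).f1 a) z

variable {F : W → Fl A} {n : Fin 3 → A} {z : W}

omit [CompleteSpace A] in
theorem hd {f : W → A} (h : DifferentiableAt ℂ f z) : HD ℂ f z (fderiv ℂ f z) := ⟨h, fun _ => rfl⟩

omit [CompleteSpace A] in
theorem dot_diff {u v : W → Fin 3 → A} (hu : ∀ c, DifferentiableAt ℂ (u · c) z)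
    (hv : ∀ c, DifferentiableAt ℂ (v · c) z) : DifferentiableAt ℂ (fun y => dot (u y) (v y)) z :=
  DifferentiableAt.fun_sum fun c _ => (hu c).mul (hv c)

namespace DF

variable (h : DF F n z)
include h

omit [CompleteSpace A] in
theorem J (a c : Fin 3) : DifferentiableAt ℂ (fun v => (F v).J a c) z := by
  simp only [Fl.J, h.n]
  exact (differentiableAt_const _).add ((h.y1 a c).add
    (((h.j1 a).mul (h.V c)).add (h.j0.mul (h.V1 a c))))

omit [CompleteSpace A] in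
theorem K (a b c : Fin 3) : DifferentiableAt ℂ (fun v => (F v).K a b c) z := by
  simp only [Fl.K, h.n, K0]
  exact ((((h.B a b).mul_const _).neg).sub ((h.B a c).const_mul _)).add ((h.y2 a b c).add
    (((((h.j2 a b).mul (h.V c)).add ((h.j1 b).mul (h.V1 a c))).add
      ((h.j1 a).mul (h.V1 b c))).add (h.j0.mul (h.V2 a b c))))

omit [CompleteSpace A] in
theorem N (c : Fin 3) : DifferentiableAt ℂ (fun v => (F v).N c) z := by
  simp only [Fl.N, h.n]
  exact (HD.Nv (J := fun v => (F v).J) (J' := fun w a c => fderiv ℂ (fun v => (F v).J a c) z w) n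
    (fun a c => hd (h.J a c)) c).diff

omit [CompleteSpace A] in
theorem G : DifferentiableAt ℂ (fun v => (F v).G) z := by
  have := dot_diff h.N h.N
  exact this

omit [CompleteSpace A] in
theorem NV : DifferentiableAt ℂ (fun v => (F v).NV) z := dot_diff h.N h.V

omit [CompleteSpace A] in
theorem d3 : DifferentiableAt ℂ (fun v => (F v).d3) z :=
  (differentiableAt_const _).sub (h.j0.mul h.f0)

theorem E (hu : (F z).U) : DifferentiableAt ℂ (fun v => (F v).E) z := by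
  have hH : DifferentiableAt ℂ (fun v => HP (F v).n (F v).J (F v).K) z := by
    simp only [h.n]
    exact (HD.HP (J := fun v => (F v).J) (J' := fun w a c => fderiv ℂ (fun v => (F v).J a c) z w)
      (K := fun v => (F v).K) (K' := fun w a b c => fderiv ℂ (fun v => (F v).K a b c) z w) n
      (fun a c => hd (h.J a c)) fun a b c => hd (h.K a b c)).diff
  have hW : ∀ a c, DifferentiableAt ℂ (fun v => Wv (F v).J a c) z := fun a c =>
    (HD.Wv (J := fun v => (F v).J) (J' := fun w a c => fderiv ℂ (fun v => (F v).J a c) z w)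
      (fun a c => hd (h.J a c)) a c).diff
  have hn : ∀ c, DifferentiableAt ℂ (fun v => (F v).n c) z := fun c => by
    simp only [h.n]; exact differentiableAt_const _
  have h2 : DifferentiableAt ℂ (fun v => (F v).E2) z :=
    ((((DifferentiableAt.fun_sum fun a _ => h.B a a).const_mul 2).mul (dot_diff hn h.N)).sub
      (h.j0.mul (dot_diff h.Vd h.N))).sub (dot_diff h.yd h.N)
  have h3 : DifferentiableAt ℂ (fun v => (F v).E3) z :=
    (h.G.mul h.f0).sub (DifferentiableAt.fun_sum fun a _ => (dot_diff (hW a) h.V).mul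
      (((h.j1 a).mul h.f0).add (h.j0.mul (h.f1 a))))
  exact (((hH.const_mul 2).mul ((hd (h.G.mul h.NV)).inverse (hu.G.mul hu.NV)).diff).sub
    (h2.mul ((hd h.NV).inverse hu.NV).diff)).sub ((h3.const_mul 2).mul
      ((hd ((h.NV.mul h.NV).mul h.d3)).inverse ((hu.NV.mul hu.NV).mul hu.d3)).diff)

theorem ev_U (hb : (F z).Bp) : ∀ᶠ v in 𝓝 z, (F v).U := by
  have key : ∀ {f : W → A}, DifferentiableAt ℂ f z → f z = 1 → ∀ᶠ v in 𝓝 z, IsUnit (f v) :=
    fun hf e => hf.continuousAt.eventually (Units.isOpen.mem_nhds (by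
      rw [e]; exact isUnit_one))
  filter_upwards [key h.G hb.G, key h.NV hb.NV, key h.d3 hb.d3] with v a b c using ⟨a, b, c⟩

end DF

end Hol

end Crest.Agent.N250.Nq

end
end

-- ▼ part N250/Nq/Defs

/-!
# Row 250 (helper71): the core nonlinearity `NL` on the algebra `σ.AA`, definitions
-/

set_option autoImplicit false
open Filter Topology
open scoped NNReal

noncomputable section

namespace Crest.Agent.N250.Nq

open Gc WS

variable {X : Type} [TopologicalSpace X] [MeasurableSpace X]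

/-- transversal field, rotation cut-offs, multiplier functions, outer cut-off -/
structure Dt (G : Geo X) (J κ : Type) where
  Z : Fin 3 → G.R
  χ : J → G.R
  φ : κ → G.R
  cut : G.R

/-- matrices -/
abbrev Mt (J : Type) : Type := J → Fin 3 → Fin 3 → ℂ

namespace Dt

variable {G : Geo X} {J κ : Type} (D : Dt G J κ)

/-- hypotheses on the data -/
structure Good : Prop where
  nZ : ∑ c, G.n c * D.Z c = 1
  symZ : ∀ c, G.Sy 0 (D.Z c)
  symZd : ∀ c, G.Sy (-2) (G.ζ * G.S.dr (D.Z c))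
  cχ : ∀ j, HasCompactSupport (G.ζ * D.χ j).1
  cφ : ∀ i, HasCompactSupport (D.φ i).1
  symcut : G.Sy 0 D.cut
  cut : ∀ p, D.cut.1 p ≠ 0 → G.ζ.1 p = 1

variable [Fintype J] [Fintype κ]

/-- `(∑ χ_j T_j) w` -/
def mv (T : Mt J) (w : Fin 3 → G.R) (c : Fin 3) : G.SmC :=
  ∑ j, ∑ d, T j c d • G.oR (D.χ j * w d)

/-- `V = M Z`, `M = 1 + ∑ χ_j T_j` -/
def VV (T : Mt J) (c : Fin 3) : G.SmC := G.oR (D.Z c) + D.mv T D.Z c

/-- `y = (M - 1) x` -/
def yy (T : Mt J) : Fin 3 → G.SmC := D.mv T G.S.x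

/-- the map `M (x + u Z)` -/
def Xh (u : G.SmC) (T : Mt J) : Fin 3 → G.SmC := G.SC.x + (D.yy T + fun c => u * D.VV T c)

/-- the multiplier function -/
def ph (c : κ → ℂ) : G.SmC := ∑ i, c i • G.oR (D.φ i)

/-- `⟨N, M Z⟩` -/
def NZ (u : G.SmC) (T : Mt J) : G.SmC := dot (G.SC.NX (D.Xh u T)) (D.VV T)

/-- numerator of the multiplier term -/
def Mu (u : G.SmC) (T : Mt J) (c : κ → ℂ) : G.SmC := G.SC.GX (D.Xh u T) * D.ph c -
  ∑ a, dot (G.SC.WX (D.Xh u T) a) (D.VV T) * G.SC.D a (u * D.ph c)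

/-- the normalised Euler-Lagrange expression -/
def EQ (u : G.SmC) (T : Mt J) (c : κ → ℂ) (p : X) : ℂ :=
  (G.SC.ELX (D.Xh u T)).1 p / (2 * (G.SC.GX (D.Xh u T)).1 p * (D.NZ u T).1 p) -
    (D.Mu u T c).1 p / ((D.NZ u T).1 p ^ 2 * (1 - u.1 p * (D.ph c).1 p))

/-- the denominators do not vanish at `p` -/
structure Nd (u : G.SmC) (T : Mt J) (c : κ → ℂ) (p : X) : Prop where
  GX : (G.SC.GX (D.Xh u T)).1 p ≠ 0
  NZ : (D.NZ u T).1 p ≠ 0
  d3 : 1 - u.1 p * (D.ph c).1 p ≠ 0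

end Dt

variable {G : Geo X}

/-- `ζ ρ^k D^l g` -/
def ow (G : Geo X) (k : ℕ) (l : List (Fin 3)) (g : G.R) : G.R := G.ζ * (G.ρ ^ k * G.S.Dw l g)

/-- `ζ ρ^k dr g` -/
def od (G : Geo X) (k : ℕ) (g : G.R) : G.R := G.ζ * (G.ρ ^ k * G.S.dr g)

/-- finite norm -/
def Fi (G : Geo X) (ε : ℕ → ℝ≥0) (f : G.R) : Prop := G.NN ε (G.oR f) ≠ ⊤

/-- a real function as an element of the algebra (`0` if it is not in the algebra) -/
def tr [BorelSpace X] (σ : Scale G) (f : G.R) : σ.AA := by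
  classical exact if h : Fi G σ.ε f then σ.el (G.oR f) h else 0

/-- the variables `(j0, j1, j2, T, c)` -/
abbrev Vr [BorelSpace X] (σ : Scale G) (J κ : Type) : Type :=
  σ.AA × (Fin 3 → σ.AA) × (Fin 3 → Fin 3 → σ.AA) × Mt J × (κ → ℂ)

namespace Dt

variable {J κ : Type} (D : Dt G J κ)

/-- all coefficients are in the algebra -/
structure Ok (ε : ℕ → ℝ≥0) : Prop where
  n : ∀ a, Fi G ε (G.n a)
  B : ∀ a b, Fi G ε (G.ρ * G.S.B a b)
  Z : ∀ c, Fi G ε (D.Z c)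
  Z1 : ∀ a c, Fi G ε (ow G 1 [a] (D.Z c))
  Z2 : ∀ a b c, Fi G ε (ow G 2 [a, b] (D.Z c))
  Zd : ∀ c, Fi G ε (od G 2 (D.Z c))
  V : ∀ j d, Fi G ε (ow G 0 [] (D.χ j * D.Z d))
  V1 : ∀ a j d, Fi G ε (ow G 1 [a] (D.χ j * D.Z d))
  V2 : ∀ a b j d, Fi G ε (ow G 2 [a, b] (D.χ j * D.Z d))
  Vd : ∀ j d, Fi G ε (od G 2 (D.χ j * D.Z d))
  y1 : ∀ a j d, Fi G ε (ow G 0 [a] (D.χ j * G.S.x d))
  y2 : ∀ a b j d, Fi G ε (ow G 1 [a, b] (D.χ j * G.S.x d))
  yd : ∀ j d, Fi G ε (od G 1 (D.χ j * G.S.x d) - ow G 1 [] (D.χ j * G.S.x d))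
  f0 : ∀ i, Fi G ε (G.ρ * D.φ i)
  f1 : ∀ a i, Fi G ε (G.ρ ^ 2 * G.S.D a (D.φ i))
  cut : Fi G ε D.cut
  rot : ∀ j c d, Fi G ε (D.cut * (G.ρ * G.S.LL (D.χ j * G.S.x d * G.n c)))

variable [Fintype J] [Fintype κ] [BorelSpace X] (σ : Scale G)

/-- `∑ T j c d • O (χ_j w_d)` -/
def rt (O : G.R → G.R) (w : Fin 3 → G.R) (T : Mt J) (c : Fin 3) : σ.AA :=
  ∑ j, ∑ d, T j c d • tr σ (O (D.χ j * w d))

/-- the jets in the algebra -/
def fl (v : Vr σ J κ) : Fl σ.AA where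
  n a := tr σ (G.n a)
  B a b := tr σ (G.ρ * G.S.B a b)
  j0 := v.1
  j1 := v.2.1
  j2 := v.2.2.1
  V c := tr σ (D.Z c) + D.rt σ (ow G 0 []) D.Z v.2.2.2.1 c
  V1 a c := tr σ (ow G 1 [a] (D.Z c)) + D.rt σ (ow G 1 [a]) D.Z v.2.2.2.1 c
  V2 a b c := tr σ (ow G 2 [a, b] (D.Z c)) + D.rt σ (ow G 2 [a, b]) D.Z v.2.2.2.1 c
  Vd c := tr σ (od G 2 (D.Z c)) + D.rt σ (od G 2) D.Z v.2.2.2.1 c
  y1 a c := D.rt σ (ow G 0 [a]) G.S.x v.2.2.2.1 c
  y2 a b c := D.rt σ (ow G 1 [a, b]) G.S.x v.2.2.2.1 c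
  yd c := D.rt σ (fun g => od G 1 g - ow G 1 [] g) G.S.x v.2.2.2.1 c
  f0 := ∑ i, v.2.2.2.2 i • tr σ (G.ρ * D.φ i)
  f1 a := ∑ i, v.2.2.2.2 i • tr σ (G.ρ ^ 2 * G.S.D a (D.φ i))

/-- `cut ρ (EQ - (dr u - u) / 2)` -/
def FF (v : Vr σ J κ) : σ.AA := (1 / 2 : ℂ) • (tr σ D.cut * (D.fl σ v).E)

/-- `cut ρ (EQ + LL u + LL ⟨y, n⟩ + φ)`: the quadratic part -/
def NL (v : Vr σ J κ) : σ.AA := D.FF σ v - fderiv ℂ (D.FF σ) 0 v

/-- `cut ρ LL ⟨y, n⟩`, linear in `T` -/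
def rot : Mt J →L[ℂ] σ.AA :=
  ∑ j, ∑ c, ∑ d, ((ContinuousLinearMap.proj d).comp ((ContinuousLinearMap.proj c).comp
    (ContinuousLinearMap.proj j : Mt J →L[ℂ] Fin 3 → Fin 3 → ℂ))).smulRight
      (tr σ (D.cut * (G.ρ * G.S.LL (D.χ j * G.S.x d * G.n c))))

/-- `cut ρ (EQ + LL u + φ)` -/
def NQ (v : Vr σ J κ) : σ.AA := D.NL σ v - D.rot σ v.2.2.2.1

end Dt

variable [BorelSpace X] {σ : Scale G} {J κ : Type}

/-- conjugation of the variables -/
def cjV (v : Vr σ J κ) : Vr σ J κ :=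
  (σ.cj v.1, fun a => σ.cj (v.2.1 a), fun a b => σ.cj (v.2.2.1 a b), star v.2.2.2.1, star v.2.2.2.2)

/-- at `p` the variables are the weighted jets of `u` -/
structure At (v : Vr σ J κ) (u : G.SmC) (p : X) : Prop where
  ζ : G.ζ.1 p = 1
  j0 : (σ.val v.1).1 p = (G.oR G.ι * u).1 p
  j1 : ∀ a, (σ.val (v.2.1 a)).1 p = (G.SC.D a u).1 p
  j2 : ∀ a b, (σ.val (v.2.2.1 a b)).1 p = (G.oR G.ρ * G.SC.D a (G.SC.D b u)).1 p

end Crest.Agent.N250.Nq

end
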