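import Crest.Agent.N250.Gc.Par
import Crest.Agent.N250.Wt.Base
import Crest.Agent.N250.Nq.Defs
import Crest.Agent.N250.Gl.Out
import Crest.Agent.N250.Wt.Grn

-- ▼ part N250/Nq/Lin
section

/-!
# Row 250 (helper71): the linearisation of the shrinker expression `EL` at a shrinker
-/

set_option autoImplicit false

noncomputable section

namespace Crest.Agent.N250

open Gc

namespace Nq

/-- value and derivative at `0` -/
structure Dv (f : ℂ → ℂ) (a b : ℂ) : Prop where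
  val : f 0 = a
  der : HasDerivAt f b 0

namespace Dv

variable {f g : ℂ → ℂ} {a b a' b' : ℂ}

theorem congr (h : Dv f a b) (ha : a = a') (hb : b = b') : Dv f a' b' := ha ▸ hb ▸ h
theorem const (a : ℂ) : Dv (fun _ => a) a 0 := ⟨rfl, hasDerivAt_const _ _⟩
theorem id : Dv (fun s => s) 0 1 := ⟨rfl, hasDerivAt_id _⟩
theorem add (h : Dv f a b) (k : Dv g a' b') : Dv (fun s => f s + g s) (a + a') (b + b') :=
  ⟨by rw [h.val, k.val], h.der.add k.der⟩
theorem sub (h : Dv f a b) (k : Dv g a' b') : Dv (fun s => f s - g s) (a - a') (b - b') :=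
  ⟨by rw [h.val, k.val], h.der.sub k.der⟩
theorem neg (h : Dv f a b) : Dv (fun s => -f s) (-a) (-b) := ⟨by rw [h.val], h.der.neg⟩
theorem mul (h : Dv f a b) (k : Dv g a' b') :
    Dv (fun s => f s * g s) (a * a') (b * a' + a * b') :=
  ⟨by rw [h.val, k.val], by rw [← h.val, ← k.val]; exact h.der.mul k.der⟩
theorem inv (h : Dv f a b) (ha : a ≠ 0) : Dv (fun s => (f s)⁻¹) a⁻¹ (-b / a ^ 2) :=
  ⟨by rw [h.val], by rw [← h.val] at ha ⊢; exact h.der.inv ha⟩
theorem sum {κ : Type} [Fintype κ] {f : κ → ℂ → ℂ} {a b : κ → ℂ} (h : ∀ i, Dv (f i) (a i) (b i)) :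
    Dv (fun s => ∑ i, f i s) (∑ i, a i) (∑ i, b i) :=
  ⟨by simp only [(h _).val], HasDerivAt.fun_sum fun i _ => (h i).der⟩
theorem ite {c : Prop} [Decidable c] (h : Dv f a b) :
    Dv (fun s => if c then f s else 0) (if c then a else 0) (if c then b else 0) := by
  split_ifs
  exacts [h, const 0]
theorem dot {u v : ℂ → Fin 3 → ℂ} {a b a' b' : Fin 3 → ℂ} (h : ∀ c, Dv (u · c) (a c) (b c))
    (k : ∀ c, Dv (v · c) (a' c) (b' c)) :
    Dv (fun s => dot (u s) (v s)) (dot a a') (dot b a' + dot a b') :=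
  (sum fun c => (h c).mul (k c)).congr rfl Finset.sum_add_distrib

end Dv

/-- the projection with normal `n` -/
def pj {R : Type} [CommRing R] (n : Fin 3 → R) (a b : Fin 3) : R :=
  (if a = b then 1 else 0) - n a * n b

theorem Nv_pj {R : Type} [CommRing R] (n : Fin 3 → R) (c : Fin 3) : Nv n (pj n) c = n c := by
  refine fin3 (P := fun c => Nv n (pj n) c = n c) ?_ ?_ ?_ c <;>
    simp [Nv, cr, pj, Fin.sum_univ_three, f11, f12, f21, f22] <;> ring

variable {n x V : Fin 3 → ℂ} {B U : Fin 3 → Fin 3 → ℂ} {Y : Fin 3 → Fin 3 → Fin 3 → ℂ}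
  {X : ℂ → Fin 3 → ℂ} {J : ℂ → Fin 3 → Fin 3 → ℂ} {K : ℂ → Fin 3 → Fin 3 → Fin 3 → ℂ}

theorem dv_N (hJ : ∀ a c, Dv (J · a c) (pj n a c) (U a c)) (c : Fin 3) :
    Dv (fun s => Nv n (J s) c) (n c) ((∑ a, U a a) * n c - dot (U c) n) := by
  refine (Dv.sum fun a => (Dv.const (n a)).mul (((hJ (a + 1) (c + 1)).mul (hJ (a + 2) (c + 2))).sub
    ((hJ (a + 1) (c + 2)).mul (hJ (a + 2) (c + 1))))).congr (Nv_pj n c) ?_
  revert c
  refine fin3 ?_ ?_ ?_ <;>
    simp [pj, Gc.dot, Fin.sum_univ_three, f11, f12, f21, f22] <;> ring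

/-- the pointwise linearisation -/
theorem dv_EL (nn : ∑ a, n a * n a = 1) (nU : ∀ c, ∑ a, n a * U a c = 0)
    (nY : ∀ b c, ∑ a, n a * Y a b c = 0) (Bs : ∀ a b, B a b = B b a)
    (nB : ∀ b, ∑ a, n a * B a b = 0) (hs : dot x n = 2 * ∑ a, B a a)
    (hX : ∀ c, Dv (X · c) (x c) (V c)) (hJ : ∀ a c, Dv (J · a c) (pj n a c) (U a c))
    (hK : ∀ a b c, Dv (K · a b c) (-(B a b * n c) - n b * B a c) (Y a b c)) :
    Dv (fun s => G2 n (J s)) 1 (2 * ∑ a, U a a) ∧
    Dv (fun s => EL n (X s) (J s) (K s)) 0 (-2 * (∑ a, dot (Y a a) n + 2 * ∑ a, ∑ c, B a c * U a c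
      - 1 / 2 * ∑ a, x a * dot (U a) n + 1 / 2 * dot V n)) := by
  have hN := dv_N hJ
  have e1 : dot (fun c => (∑ a, U a a) * n c - dot (U c) n) n = ∑ a, U a a := by
    have h0 := nU 0; have h1 := nU 1; have h2 := nU 2
    simp only [Gc.dot, Fin.sum_univ_three] at nn h0 h1 h2 ⊢
    linear_combination (U 0 0 + U 1 1 + U 2 2) * nn - n 0 * h0 - n 1 * h1 - n 2 * h2
  have hG : Dv (fun s => G2 n (J s)) 1 (2 * ∑ a, U a a) :=
    (Dv.dot hN hN).congr nn (by rw [dot_comm n, e1]; ring)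
  have hg : ∀ a b, Dv (fun s => gm (J s) a b) (pj n a b)
      (U a b + U b a - n b * dot (U a) n - n a * dot (U b) n) := fun a b => by
    refine (Dv.dot (hJ a) (hJ b)).congr ?_ ?_
    · have : ∀ a b, dot (pj n a) (pj n b) = pj n a b + n a * n b * (∑ a, n a * n a - 1) := by
        refine fin3 ?_ ?_ ?_ <;> refine fin3 ?_ ?_ ?_ <;>
          simp [pj, Gc.dot, Fin.sum_univ_three] <;> ring
      rw [this, nn]; ring
    · have : ∀ b (w : Fin 3 → ℂ), dot w (pj n b) = w b - n b * dot w n := by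
        refine fin3 ?_ ?_ ?_ <;> intro w <;> simp [pj, Gc.dot, Fin.sum_univ_three] <;> ring
      rw [dot_comm (pj n a), this, this]; ring
  have ht : Dv (fun s => ∑ e, gm (J s) e e) 2 (2 * ∑ a, U a a) := by
    refine (Dv.sum fun e => hg e e).congr ?_ ?_
    · simp only [pj, Fin.sum_univ_three, if_true] at nn ⊢
      linear_combination -nn
    · have h0 := nU 0; have h1 := nU 1; have h2 := nU 2
      simp only [Gc.dot, Fin.sum_univ_three] at h0 h1 h2 ⊢
      linear_combination -2 * n 0 * h0 - 2 * n 1 * h1 - 2 * n 2 * h2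
  have hKN : ∀ a b, Dv (fun s => dot (K s a b) (Nv n (J s))) (-B a b)
      (dot (Y a b) n - B a b * ∑ a, U a a + n b * ∑ c, B a c * dot (U c) n) := fun a b => by
    have h0 := nB a
    simp only [Bs _ a] at h0
    refine (Dv.dot (hK a b) hN).congr ?_ ?_
    · simp only [Gc.dot, Fin.sum_univ_three] at nn h0 ⊢
      linear_combination -B a b * nn - n b * h0
    · have : dot (fun c => -(B a b * n c) - n b * B a c)
          (fun c => (∑ a, U a a) * n c - dot (U c) n) =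
          -B a b * dot (fun c => (∑ a, U a a) * n c - dot (U c) n) n
          - n b * (∑ a, U a a) * ∑ c, n c * B a c + n b * ∑ c, B a c * dot (U c) n := by
        simp only [Gc.dot, Fin.sum_univ_three]; ring
      rw [this, e1, h0]; ring
  have hH : Dv (fun s => HP n (J s) (K s)) (∑ a, B a a)
      (3 * (∑ a, B a a) * ∑ a, U a a - 2 * ∑ a, ∑ c, B a c * U a c - ∑ a, dot (Y a a) n) := by
    have b0 := nB 0; have b1 := nB 1; have b2 := nB 2
    have s01 := Bs 1 0; have s02 := Bs 2 0; have s12 := Bs 2 1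
    refine (Dv.sum fun a => Dv.sum fun b =>
      (((ht.ite (c := a = b)).sub (hg a b)).mul (hKN a b))).neg.congr ?_ ?_
    · simp [pj, Fin.sum_univ_three, s01, s02, s12] at b0 b1 b2 ⊢
      linear_combination n 0 * b0 + n 1 * b1 + n 2 * b2
    · have y0 : ∑ a, n a * dot (Y a 0) n = 0 := by
        have := nY 0 0; have := nY 0 1; have := nY 0 2
        simp only [Gc.dot, Fin.sum_univ_three] at *
        linear_combination n 0 * ‹n 0 * Y 0 0 0 + _ + _ = 0› + n 1 * ‹n 0 * Y 0 0 1 + _ + _ = 0› +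
          n 2 * ‹n 0 * Y 0 0 2 + _ + _ = 0›
      have y1 : ∑ a, n a * dot (Y a 1) n = 0 := by
        have := nY 1 0; have := nY 1 1; have := nY 1 2
        simp only [Gc.dot, Fin.sum_univ_three] at *
        linear_combination n 0 * ‹n 0 * Y 0 1 0 + _ + _ = 0› + n 1 * ‹n 0 * Y 0 1 1 + _ + _ = 0› +
          n 2 * ‹n 0 * Y 0 1 2 + _ + _ = 0›
      have y2 : ∑ a, n a * dot (Y a 2) n = 0 := by
        have := nY 2 0; have := nY 2 1; have := nY 2 2
        simp only [Gc.dot, Fin.sum_univ_three] at *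
        linear_combination n 0 * ‹n 0 * Y 0 2 0 + _ + _ = 0› + n 1 * ‹n 0 * Y 0 2 1 + _ + _ = 0› +
          n 2 * ‹n 0 * Y 0 2 2 + _ + _ = 0›
      generalize dot (U 0) n = w0, dot (U 1) n = w1, dot (U 2) n = w2 at *
      simp [pj, Fin.sum_univ_three, s01, s02, s12] at nn b0 b1 b2 y0 y1 y2 ⊢
      generalize dot (U 0) n = w0, dot (U 1) n = w1, dot (U 2) n = w2
      linear_combination (-(n 0) * y0 - n 1 * y1 - n 2 * y2)
        + (U 0 0 + U 1 1 + U 2 2) * (n 0 * b0 + n 1 * b1 + n 2 * b2)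
        + (1 - (n 0 * n 0 + n 1 * n 1 + n 2 * n 2)) * (w0 * b0 + w1 * b1 + w2 * b2)
  refine ⟨hG, (((Dv.const 2).mul hH).sub ((Dv.dot hX hN).mul hG)).congr (by rw [hs]; ring) ?_⟩
  have e2 : dot x (fun c => (∑ a, U a a) * n c - dot (U c) n) =
      (∑ a, U a a) * dot x n - ∑ a, x a * dot (U a) n := by
    simp only [Gc.dot, Fin.sum_univ_three]; ring
  rw [e2, hs]; ring

end Nq

namespace Mov.IsHyp

variable {R : Type} [CommRing R] [Algebra ℝ R] {S : Mov R (Fin 3)} (H : S.IsHyp)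
include H

theorem Bx_shr (hs : S.xn = 2 * S.h) (a : Fin 3) : ∑ b, S.B a b * S.x b = 2 * S.D a S.h := by
  rw [← H.D_xn, hs, two_mul, two_mul, H.add]

/-- the Jacobi operator on the normal component of a field -/
theorem LL_dot (hs : S.xn = 2 * S.h) (V : Fin 3 → R) : S.LL (dot V S.n) =
    ∑ a, dot (S.Km V a a) S.n + 2 * ∑ a, ∑ c, S.B a c * S.Jm V a c
      - algebraMap ℝ R (1 / 2) * ∑ a, S.x a * dot (S.Jm V a) S.n
      + algebraMap ℝ R (1 / 2) * dot V S.n := by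
  have h2 : algebraMap ℝ R (1 / 2) * 2 = 1 := by
    rw [← map_ofNat (algebraMap ℝ R) 2, ← map_mul]; norm_num
  have d1 : ∀ a, S.D a (dot V S.n) = dot V (S.B a) + dot (S.Jm V a) S.n := fun a => H.D_dot _ _ _
  have d2 : ∀ a, S.D a (S.D a (dot V S.n)) = dot V (fun c => S.D a (S.B a c))
      + 2 * dot (S.Jm V a) (S.B a) + dot (S.Km V a a) S.n := fun a => by
    rw [d1, H.add, H.D_dot, H.D_dot]
    change _ + dot (S.Jm V a) (S.B a) + (dot (S.Jm V a) (S.B a) + dot (S.Km V a a) S.n) = _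
    ring
  have b0 := H.dv_B 0; have b1 := H.dv_B 1; have b2 := H.dv_B 2
  have x0 := H.Bx_shr hs 0; have x1 := H.Bx_shr hs 1; have x2 := H.Bx_shr hs 2
  simp only [LL, Mi, Pi, dr, N222.Pre.lap, d2]
  simp only [d1]
  simp only [dot, Fin.sum_univ_three, H.B_symm 1 0, H.B_symm 2 0, H.B_symm 2 1, Nat.cast_zero]
    at b0 b1 b2 x0 x1 x2 ⊢
  linear_combination V 0 * b0 + V 1 * b1 + V 2 * b2
    - algebraMap ℝ R (1 / 2) * (V 0 * x0 + V 1 * x1 + V 2 * x2)
    - (V 0 * S.D 0 S.h + V 1 * S.D 1 S.h + V 2 * S.D 2 S.h) * h2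

end Mov.IsHyp

end Crest.Agent.N250

end
end

-- ▼ part N250/Nq/Pt
section

/-!
# Row 250 (helper71): the rational function of the jets of a function, pointwise
-/

set_option autoImplicit false
set_option linter.unusedSectionVars false
open Filter Topology

noncomputable section

namespace Crest.Agent.N250.Nq

open Gc WS

section Ring

variable {R : Type} [CommRing R] (S : Mov R (Fin 3)) (ρ ι u φ : R) (V y : Fin 3 → R)

/-- the jets of `x + y + u V` -/
def tf : Fl R where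
  n := S.n
  B a b := ρ * S.B a b
  j0 := ι * u
  j1 a := S.D a u
  j2 a b := ρ * S.D a (S.D b u)
  V := V
  V1 a c := ρ * S.D a (V c)
  V2 a b c := ρ ^ 2 * S.D a (S.D b (V c))
  Vd c := ρ ^ 2 * S.dr (V c)
  y1 a c := S.D a (y c)
  y2 a b c := ρ * S.D a (S.D b (y c))
  yd c := ρ * (S.dr (y c) - y c)
  f0 := ρ * φ
  f1 a := ρ ^ 2 * S.D a φ

variable [Algebra ℝ R] {S ρ ι} (H : S.IsHyp) (e : ρ * ι = 1)
include H e

theorem tf_J : (tf S ρ ι u φ V y).J = S.Jm (S.x + (y + fun c => u * V c)) := by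
  rw [H.Jm_add, H.Jm_add, H.Jm_x, H.Jm_mul]
  funext a c
  simp only [Fl.J, tf, Pi.add_apply, Mov.gJ, Mov.Jm]
  linear_combination u * S.D a (V c) * e

theorem tf_K : (tf S ρ ι u φ V y).K = fun a b c => ρ * S.Km (S.x + (y + fun c => u * V c)) a b c := by
  rw [H.Km_add, H.Km_add, H.Km_x, H.Km_mul]
  funext a b c
  simp only [Fl.K, tf, Pi.add_apply, Mov.gK, Mov.Km, K0]
  linear_combination ρ * u * S.D a (S.D b (V c)) * e

theorem tf_N : (tf S ρ ι u φ V y).N = S.NX (S.x + (y + fun c => u * V c)) := by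
  rw [Fl.N, tf_J u φ V y H e]; rfl

theorem tf_G : (tf S ρ ι u φ V y).G = S.GX (S.x + (y + fun c => u * V c)) := by
  rw [Fl.G, tf_J u φ V y H e]; rfl

theorem tf_NV : (tf S ρ ι u φ V y).NV = dot (S.NX (S.x + (y + fun c => u * V c))) V := by
  rw [Fl.NV, tf_N u φ V y H e]; rfl

omit H in
theorem tf_d3 : (tf S ρ ι u φ V y).d3 = 1 - u * φ := by
  simp only [Fl.d3, tf]
  linear_combination -u * φ * e

theorem tf_HP : HP (tf S ρ ι u φ V y).n (tf S ρ ι u φ V y).J (tf S ρ ι u φ V y).K =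
    ρ * S.HX (S.x + (y + fun c => u * V c)) := by
  rw [tf_J u φ V y H e, tf_K u φ V y H e, HP_mul]; rfl

theorem tf_E2 (hs : S.xn = 2 * S.h) : (tf S ρ ι u φ V y).E2 =
    ρ * (dot (S.x + (y + fun c => u * V c)) (S.NX (S.x + (y + fun c => u * V c))) +
      (S.dr u - u) * dot (S.NX (S.x + (y + fun c => u * V c))) V) := by
  rw [Fl.E2, tf_N u φ V y H e, H.drift_add, hs]
  generalize S.NX (S.x + (y + fun c => u * V c)) = N
  have hh : S.h = ∑ a, S.B a a := rfl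
  simp only [tf, hh, dot, Fin.sum_univ_three, Pi.add_apply, H.dr_add3, H.dr_mul3]
  linear_combination -ρ * u * (S.dr (V 0) * N 0 + S.dr (V 1) * N 1 + S.dr (V 2) * N 2) * e

theorem tf_E3 : (tf S ρ ι u φ V y).E3 = ρ * (S.GX (S.x + (y + fun c => u * V c)) * φ -
    ∑ a, dot (S.WX (S.x + (y + fun c => u * V c)) a) V * S.D a (u * φ)) := by
  rw [Fl.E3, tf_G u φ V y H e, tf_J u φ V y H e]
  change _ - ∑ a, dot (S.WX (S.x + (y + fun c => u * V c)) a) V * _ = _
  generalize S.WX (S.x + (y + fun c => u * V c)) = W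
  simp only [tf, Fin.sum_univ_three, H.mul]
  linear_combination -ρ * u * (dot (W 0) V * S.D 0 φ + dot (W 1) V * S.D 1 φ
    + dot (W 2) V * S.D 2 φ) * e

omit H e in
/-- the normalised Euler-Lagrange expression at the character `w` -/
def eqv (S : Mov R (Fin 3)) (w : R →+* ℂ) (u φ : R) (V Y : Fin 3 → R) : ℂ :=
  w (S.ELX Y) / (2 * w (S.GX Y) * w (dot (S.NX Y) V)) -
    w (S.GX Y * φ - ∑ a, dot (S.WX Y a) V * S.D a (u * φ)) /
      (w (dot (S.NX Y) V) ^ 2 * (1 - w u * w φ))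

theorem tf_E (hs : S.xn = 2 * S.h) (w : R →+* ℂ) (h : ((tf S ρ ι u φ V y).map w).U) :
    ((tf S ρ ι u φ V y).map w).E =
      w ρ * (2 * eqv S w u φ V (S.x + (y + fun c => u * V c)) - w (S.dr u - u)) := by
  have h1 := h.G.ne_zero
  have h2 := h.NV.ne_zero
  have h3 := h.d3.ne_zero
  simp only [Fl.E, Fl.map_HP', Fl.map_G, Fl.map_NV, Fl.map_d3, Fl.map_E2, Fl.map_E3,
    tf_G _ _ _ _ H e, tf_NV _ _ _ _ H e, tf_d3 _ _ _ _ e, tf_HP _ _ _ _ H e, tf_E2 _ _ _ _ H e hs,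
    tf_E3 _ _ _ _ H e, Ring.inverse_eq_inv, eqv] at h1 h2 h3 ⊢
  generalize S.x + (y + fun c => u * V c) = Y at *
  have e4 : S.ELX Y = 2 * S.HX Y - dot Y (S.NX Y) * S.GX Y := rfl
  rw [e4]
  generalize dot (S.NX Y) V = a, dot Y (S.NX Y) = b,
    S.GX Y * φ - ∑ a, dot (S.WX Y a) V * S.D a (u * φ) = d, S.dr u - u = f at *
  simp only [map_add, map_sub, map_mul, map_one, map_ofNat] at h3 ⊢
  field_simp
  ring

omit e in
theorem dv_eqv (hs : S.xn = 2 * S.h) (w : R →+* ℂ) (hw : w (algebraMap ℝ R (1 / 2)) = 1 / 2)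
    {Y V : ℂ → Fin 3 → R} {u φ : ℂ → R} {A Z : Fin 3 → R} {V' : Fin 3 → ℂ} {f g : ℂ}
    (hZ : dot S.n Z = 1)
    (ev : ∀ l d, Dv (fun s => w (S.Dw l (Y s d))) (w (S.Dw l (S.x d))) (w (S.Dw l (A d))))
    (hV : ∀ d, Dv (fun s => w (V s d)) (w (Z d)) (V' d)) (hp : Dv (fun s => w (φ s)) 0 f)
    (hu : Dv (fun s => w (u s)) 0 g) (hq : ∀ a, Dv (fun s => w (S.D a (u s * φ s))) 0 0) :
    Dv (fun s => eqv S w (u s) (φ s) (V s) (Y s)) 0 (-(w (S.LL (dot A S.n)) + f)) := by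
  have hX : ∀ d, Dv (fun s => w (Y s d)) (w (S.x d)) (w (A d)) := ev []
  have hJ : ∀ a d, Dv (fun s => w (S.Jm (Y s) a d)) (pj (fun a => w (S.n a)) a d)
      (w (S.Jm A a d)) := fun a d =>
    (ev [a] d).congr (by
      change w (S.Jm S.x a d) = _
      simp only [H.Jm_x, P0, pj, map_sub, map_mul, apply_ite w, map_one, map_zero]) rfl
  have hK : ∀ a b d, Dv (fun s => w (S.Km (Y s) a b d))
      (-(w (S.B a b) * w (S.n d)) - w (S.n b) * w (S.B a d)) (w (S.Km A a b d)) := fun a b d =>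
    (ev [a, b] d).congr (by
      change w (S.Km S.x a b d) = _
      simp only [H.Km_x, K0, map_sub, map_mul, map_neg]) rfl
  have nn : ∑ a, w (S.n a) * w (S.n a) = 1 := by
    simp only [← map_mul, ← map_sum, H.nn, map_one]
  obtain ⟨hG, hE⟩ := dv_EL (n := fun a => w (S.n a)) (x := fun a => w (S.x a))
    (B := fun a b => w (S.B a b)) nn
    (fun d => by simp only [← map_mul, ← map_sum, (H.fr A).nJ, map_zero])
    (fun b d => by simp only [← map_mul, ← map_sum, H.n_K, map_zero])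
    (fun a b => by rw [H.B_symm])
    (fun b => by simp only [← map_mul, ← map_sum, H.n_B, map_zero])
    (by
      have := congrArg w hs
      rw [map_mul, map_ofNat] at this
      rw [← map_dot, ← map_sum]
      exact this) hX hJ hK
  have hNZ := (Dv.dot (dv_N hJ) hV).congr (a' := 1) (by rw [← map_dot, hZ, map_one]) rfl
  have hW := fun a => Dv.dot (fun d => Dv.sum fun b => (((Dv.sum fun e => Dv.dot (hJ e) (hJ e)).ite
    (c := a = b)).sub (Dv.dot (hJ a) (hJ b))).mul (hJ b d)) hV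
  have h1 := hE.mul ((((Dv.const 2).mul hG).mul hNZ).inv (by norm_num))
  have h2 := ((hG.mul hp).sub (Dv.sum fun a => (hW a).mul (hq a))).mul
    (((hNZ.mul hNZ).mul ((Dv.const 1).sub (hu.mul hp))).inv (by norm_num))
  have e2 := congrArg w (H.LL_dot hs A)
  simp only [map_add, map_sub, map_mul, map_sum, map_dot, map_ofNat, hw] at e2
  have h3 := (h1.sub h2).congr (a' := 0) (b' := -(w (S.LL (dot A S.n)) + f)) (by simp)
    (by rw [e2]; simp; ring)
  refine (congrArg (Dv · _ _) (funext fun s => ?_)).mp h3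
  simp only [eqv, Mov.ELX, Mov.GX, Mov.NX, Mov.WX, map_EL, map_G2, map_dot, map_Nv, map_Wv, map_sub,
    map_mul, map_sum, div_eq_mul_inv, pow_two]
  rfl

end Ring

theorem dv_quad {A : Type} [AddCommGroup A] [Module ℂ A] (l : A →ₗ[ℂ] ℂ) (a b c : A) :
    Dv (fun s : ℂ => l (a + (s • b + s • s • c))) (l a) (l b) := by
  simp only [map_add, map_smul, smul_eq_mul]
  exact ((Dv.const _).add ((Dv.id.mul (Dv.const _)).add
    (Dv.id.mul (Dv.id.mul (Dv.const _))))).congr (by ring) (by ring)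

variable {X : Type} [TopologicalSpace X] [MeasurableSpace X] {G : Geo X} {J κ : Type}
  [Fintype J] [Fintype κ] (D : Dt G J κ)

theorem ρι_C (G : Geo X) : G.oR G.ρ * G.oR G.ι = 1 := by rw [← map_mul, G.ρι, map_one]

theorem evC_eq (p : X) (f : G.SmC) : (G.evC p).toRingHom f = f.1 p := rfl

namespace Dt

/-- the jets of the map `Xh` -/
def tF (u : G.SmC) (T : Mt J) (c : κ → ℂ) : Fl G.SmC :=
  tf G.SC (G.oR G.ρ) (G.oR G.ι) u (D.ph c) (D.VV T) (D.yy T)

variable (u : G.SmC) (T : Mt J) (c : κ → ℂ) (p : X)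

theorem nd_iff : ((D.tF u T c).map (G.evC p).toRingHom).U ↔ D.Nd u T c p := by
  have e1 : ((D.tF u T c).map (G.evC p).toRingHom).G = (G.SC.GX (D.Xh u T)).1 p := by
    rw [Fl.map_G, tF, tf_G _ _ _ _ G.hypC (ρι_C G), evC_eq, Xh]
  have e2 : ((D.tF u T c).map (G.evC p).toRingHom).NV = (D.NZ u T).1 p := by
    rw [Fl.map_NV, tF, tf_NV _ _ _ _ G.hypC (ρι_C G), evC_eq, NZ, Xh]
  have e3 : ((D.tF u T c).map (G.evC p).toRingHom).d3 = 1 - u.1 p * (D.ph c).1 p := by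
    rw [Fl.map_d3, tF, tf_d3 _ _ _ _ (ρι_C G), map_sub, map_mul, map_one, evC_eq, evC_eq]
  constructor
  · rintro ⟨h1, h2, h3⟩
    rw [e1] at h1; rw [e2] at h2; rw [e3] at h3
    exact ⟨h1.ne_zero, h2.ne_zero, h3.ne_zero⟩
  · rintro ⟨h1, h2, h3⟩
    rw [← e1] at h1; rw [← e2] at h2; rw [← e3] at h3
    exact ⟨h1.isUnit, h2.isUnit, h3.isUnit⟩

theorem EQ_eq : D.EQ u T c p =
    eqv G.SC (G.evC p).toRingHom u (D.ph c) (D.VV T) (D.Xh u T) := by
  simp only [eqv, evC_eq, EQ, NZ, Mu]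

variable {D u T c p} in
theorem Nd.E (h : D.Nd u T c p) : ((D.tF u T c).map (G.evC p).toRingHom).E =
    G.ρ.1 p * (2 * D.EQ u T c p - (G.SC.dr u - u).1 p) := by
  rw [EQ_eq, Xh]
  exact tf_E _ _ _ _ G.hypC (ρι_C G) G.shrC _ ((D.nd_iff u T c p).2 h)

theorem mv_smul (s : ℂ) (w : Fin 3 → G.R) (d : Fin 3) : D.mv (s • T) w d = s • D.mv T w d := by
  simp only [mv, Finset.smul_sum, Pi.smul_apply, smul_eq_mul, mul_smul]

theorem ph_smul (s : ℂ) : D.ph (s • c) = s • D.ph c := by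
  simp only [ph, Finset.smul_sum, Pi.smul_apply, smul_eq_mul, mul_smul]

theorem Xh_smul (s : ℂ) (d : Fin 3) : D.Xh (s • u) (s • T) d = G.SC.x d +
    (s • (D.yy T d + u * G.oR (D.Z d)) + s • s • (u * D.mv T D.Z d)) := by
  simp only [Xh, yy, VV, Pi.add_apply, mv_smul, mul_add, smul_add, smul_mul_assoc, mul_smul_comm,
    add_assoc]

theorem dv_EQ (hZ : ∑ c, G.n c * D.Z c = 1) : Dv (fun s => D.EQ (s • u) (s • T) (s • c) p) 0
    (-((G.SC.LL u).1 p + (G.SC.LL (dot (D.yy T) G.SC.n)).1 p + (D.ph c).1 p)) := by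
  have hnZ : dot G.SC.n (fun d => G.oR (D.Z d)) = 1 := by
    rw [← map_one G.oR, ← hZ, map_sum]
    exact Finset.sum_congr rfl fun d _ => (map_mul _ _ _).symm
  have e1 : dot (fun d => D.yy T d + u * G.oR (D.Z d)) G.SC.n = u + dot (D.yy T) G.SC.n := by
    simp only [dot, Fin.sum_univ_three] at hnZ ⊢
    linear_combination u * hnZ
  have hp : ∀ f : G.SmC, Dv (fun s : ℂ => G.evC p (s • f)) 0 (f.1 p) := fun f =>
    (Dv.id.mul (Dv.const (f.1 p))).congr (by ring) (by ring)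
  have := dv_eqv G.hypC G.shrC (G.evC p).toRingHom (Y := fun s => D.Xh (s • u) (s • T))
    (V := fun s => D.VV (s • T)) (u := fun s => s • u) (φ := fun s => D.ph (s • c))
    (A := fun d => D.yy T d + u * G.oR (D.Z d)) (V' := fun d => (D.mv T D.Z d).1 p)
    (f := (D.ph c).1 p) (g := u.1 p)
    (by
      change (((1 / 2 : ℝ) : ℂ)) = _
      push_cast; rfl) hnZ
    (fun l d => by
      simp only [Xh_smul]
      exact dv_quad ((G.evC p).toLinearMap.comp (G.DwLin l)) _ _ _)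
    (fun d => by
      simp only [VV, mv_smul, map_add]
      exact ((Dv.const _).add (hp _)).congr (add_zero _) (zero_add _))
    (by simp only [ph_smul]; exact hp _) (hp _)
    (fun a => by
      simp only [ph_smul, smul_mul_assoc, mul_smul_comm, G.D_smul]
      exact (Dv.id.mul (hp _)).congr (by ring) (by ring))
  rw [e1, Mov.LL_add G.dsC, map_add, evC_eq, evC_eq] at this
  simpa only [EQ_eq] using this

end Dt

end Crest.Agent.N250.Nq

end
end

-- ▼ part N250/Nq/Ok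
section

/-!
# Row 250 (helper71): the coefficients of the core nonlinearity are in the algebra
-/

set_option autoImplicit false
set_option linter.unusedSectionVars false
open Filter Topology Set
open scoped NNReal

noncomputable section

namespace Crest.Agent.N250.Nq

open Gc WS

variable {X : Type} [TopologicalSpace X] [MeasurableSpace X] {G : Geo X}

/-- functions vanishing off the support of `χ` -/
def vn (χ : G.R) : Ideal G.R where
  carrier := {f | ∀ p, p ∉ tsupport χ.1 → G.ev p f = 0}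
  add_mem' hf hg p hp := by rw [map_add, hf p hp, hg p hp, add_zero]
  zero_mem' p _ := map_zero _
  smul_mem' c f hf p hp := by rw [smul_eq_mul, map_mul, hf p hp, mul_zero]

variable {χ f : G.R}

theorem vn_mul (χ g : G.R) : χ * g ∈ vn χ :=
  Ideal.mul_mem_right _ _ fun _ hp => image_eq_zero_of_notMem_tsupport (f := χ.1) hp

theorem vn_D (h : f ∈ vn χ) (a : Fin 3) : G.S.D a f ∈ vn χ := fun _ hp =>
  Geo.D_eq_zero_of_notMem (fun hq => hp (closure_minimal
    (fun q (hq : _ ≠ _) => by_contra fun h' => hq (h q h')) (isClosed_tsupport _) hq)) a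

theorem vn_Dw (h : f ∈ vn χ) (l : List (Fin 3)) : G.S.Dw l f ∈ vn χ := by
  induction l with
  | nil => exact h
  | cons a l ih => exact vn_D ih a

theorem vn_dr (h : f ∈ vn χ) : G.S.dr f ∈ vn χ :=
  Ideal.sum_mem _ fun a _ => Ideal.mul_mem_left _ _ (vn_D h a)

theorem vn_LL (h : f ∈ vn χ) : G.S.LL f ∈ vn χ :=
  add_mem (sub_mem (Ideal.sum_mem _ fun a _ => vn_D (vn_D h a) a) (Ideal.mul_mem_left _ _
    (add_mem (vn_dr h) (Ideal.mul_mem_left _ _ h)))) (Ideal.mul_mem_left _ _ h)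

theorem fi_cs (h : HasCompactSupport f.1) : ∀ᶠ ε in admF, Fi G ε f :=
  Geo.NN_ne_top_of_cs (h.comp_left (g := fun r : ℝ => (r : ℂ)) Complex.ofReal_zero)

theorem fi_vn {s : G.R} (hc : HasCompactSupport (G.ζ * χ).1) (hs : ∀ p, s.1 p ≠ 0 → G.ζ.1 p ≠ 0)
    (h : f ∈ vn χ) : ∀ᶠ ε in admF, Fi G ε (s * f) := by
  refine fi_cs (hc.mono' fun p hp => ?_)
  have h1 : p ∈ Function.support G.ζ.1 := hs p (left_ne_zero_of_mul hp)
  have h2 : p ∈ tsupport χ.1 := by_contra fun h' => right_ne_zero_of_mul hp (h p h')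
  refine closure_mono (fun q hq => ?_) ((Geo.cont G.ζ).isOpen_support.inter_closure ⟨h1, h2⟩)
  exact mul_ne_zero hq.1 hq.2

theorem fi_ow (hc : HasCompactSupport (G.ζ * χ).1) (k : ℕ) (l : List (Fin 3)) (g : G.R) :
    ∀ᶠ ε in admF, Fi G ε (ow G k l (χ * g)) :=
  fi_vn hc (fun _ => id) (Ideal.mul_mem_left _ _ (vn_Dw (vn_mul χ g) l))

theorem fi_od (hc : HasCompactSupport (G.ζ * χ).1) (k : ℕ) (g : G.R) :
    ∀ᶠ ε in admF, Fi G ε (od G k (χ * g)) :=
  fi_vn hc (fun _ => id) (Ideal.mul_mem_left _ _ (vn_dr (vn_mul χ g)))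

theorem fi_sy (h : G.Sy 0 f) (l : List (Fin 3)) : ∀ᶠ ε in admF, Fi G ε (ow G l.length l f) :=
  Geo.Sy.NN_ne_top ((G.sy_ζ.mul ((G.sy_ρ_pow _).mul (h.Dw l))).cast (by ring))

variable {J κ : Type} [Fintype J] [Fintype κ] {D : Dt G J κ}

theorem Dt.Good.ok (g : D.Good) : ∀ᶠ ε in admF, D.Ok ε := by
  have a1 := eventually_all.2 fun a => (G.sy_n a).NN_ne_top
  have a2 := eventually_all.2 fun a => eventually_all.2 fun b =>
    ((G.sy_ρ.mul (G.sy_B a b)).cast (k' := 0) (by ring)).NN_ne_top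
  have a3 := eventually_all.2 fun c => (g.symZ c).NN_ne_top
  have a4 := eventually_all.2 fun a => eventually_all.2 fun c => fi_sy (g.symZ c) [a]
  have a5 := eventually_all.2 fun a => eventually_all.2 fun b => eventually_all.2 fun c =>
    fi_sy (g.symZ c) [a, b]
  have a6 : ∀ᶠ ε in admF, ∀ c, Fi G ε (od G 2 (D.Z c)) := eventually_all.2 fun c => by
    rw [od, mul_left_comm]
    exact (((G.sy_ρ_pow 2).mul (g.symZd c)).cast (k' := 0) (by norm_num)).NN_ne_top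
  have b := fun k l (w : Fin 3 → G.R) => eventually_all.2 fun j => eventually_all.2 fun d =>
    fi_ow (g.cχ j) k l (w d)
  have b1 := eventually_all.2 fun a => b 1 [a] D.Z
  have b2 := eventually_all.2 fun a => eventually_all.2 fun a' => b 2 [a, a'] D.Z
  have b3 := eventually_all.2 fun j => eventually_all.2 fun d => fi_od (g.cχ j) 2 (D.Z d)
  have b4 := eventually_all.2 fun a => b 0 [a] G.S.x
  have b5 := eventually_all.2 fun a => eventually_all.2 fun a' => b 1 [a, a'] G.S.x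
  have b6 : ∀ᶠ ε in admF, ∀ j d, Fi G ε (od G 1 (D.χ j * G.S.x d) - ow G 1 [] (D.χ j * G.S.x d)) :=
    eventually_all.2 fun j => eventually_all.2 fun d => by
      rw [od, ow, ← mul_sub, ← mul_sub]
      exact fi_vn (g.cχ j) (fun _ => id) (Ideal.mul_mem_left _ _
        (sub_mem (vn_dr (vn_mul _ _)) (vn_mul _ _)))
  have c1 : ∀ᶠ ε in admF, ∀ i, Fi G ε (G.ρ * D.φ i) := eventually_all.2 fun i =>
    fi_cs ((g.cφ i).mul_left (f := G.ρ.1))
  have c2 : ∀ᶠ ε in admF, ∀ a i, Fi G ε (G.ρ ^ 2 * G.S.D a (D.φ i)) :=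
    eventually_all.2 fun a => eventually_all.2 fun i => fi_cs ((g.cφ i).mono' fun p hp =>
      by_contra fun h => right_ne_zero_of_mul hp (Geo.D_eq_zero_of_notMem h a))
  have c3 : ∀ᶠ ε in admF, ∀ j c d, Fi G ε (D.cut * (G.ρ * G.S.LL (D.χ j * G.S.x d * G.n c))) :=
    eventually_all.2 fun j => eventually_all.2 fun c => eventually_all.2 fun d =>
      fi_vn (g.cχ j) (fun p hp => by rw [g.cut p hp]; exact one_ne_zero)
        (Ideal.mul_mem_left _ _ (vn_LL (Ideal.mul_mem_right _ _ (vn_mul _ _))))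
  filter_upwards [a1, a2, a3, a4, a5, a6, b 0 [] D.Z, b1, b2, b3, b4, b5, b6, c1, c2,
    g.symcut.NN_ne_top, c3] with ε a1 a2 a3 a4 a5 a6 b0 b1 b2 b3 b4 b5 b6 c1 c2 c0 c3
  exact ⟨a1, a2, a3, a4, a5, a6, b0, b1, b2, b3, b4, b5, b6, c1, c2, c0, c3⟩

end Crest.Agent.N250.Nq

end
end

-- ▼ part N250/Nq/Main0
section

/-!
# Row 250 (helper71): the core nonlinearity `NL`: holomorphy, values, conjugation
-/

set_option autoImplicit false
set_option linter.unusedSectionVars false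
open Filter Topology Set
open scoped NNReal ComplexConjugate

noncomputable section

namespace Crest.Agent.N250.Nq

open Gc WS

section Abs

variable {V A : Type} [NormedAddCommGroup V] [NormedSpace ℂ V] [NormedAddCommGroup A]
  [NormedSpace ℂ A] {f : V → A}

theorem der_line (hf : DifferentiableAt ℂ f 0) (v : V) :
    HasDerivAt (fun s : ℂ => f (s • v)) (fderiv ℂ f 0 v) 0 := by
  have h1 : HasDerivAt (fun s : ℂ => s • v) v 0 := by
    simpa using (hasDerivAt_id (0 : ℂ)).smul_const v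
  exact hf.hasFDerivAt.comp_hasDerivAt_of_eq 0 h1 (zero_smul _ _).symm

theorem ev_line {P : V → Prop} (h : ∀ᶠ v in 𝓝 0, P v) (v : V) : ∀ᶠ s : ℂ in 𝓝 0, P (s • v) := by
  have : Tendsto (fun s : ℂ => s • v) (𝓝 0) (𝓝 0) :=
    (continuous_id.smul continuous_const).tendsto' _ _ (zero_smul ℂ v)
  exact this.eventually h

theorem fd_cj (hf : DifferentiableAt ℂ f 0) (L : A →L⋆[ℂ] A) {k : V → V}
    (hk : ∀ (s : ℂ) v, k (s • v) = conj s • k v) (h : ∀ᶠ v in 𝓝 0, f (k v) = L (f v)) (v : V) :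
    fderiv ℂ f 0 (k v) = L (fderiv ℂ f 0 v) := by
  have h1 := (der_line hf v).comp_semilinear (starRingEnd ℂ) L
  rw [map_zero] at h1
  refine (der_line hf (k v)).unique (h1.congr_of_eventuallyEq ?_)
  have : Tendsto (fun s : ℂ => conj s) (𝓝 0) (𝓝 0) :=
    Complex.continuous_conj.tendsto' _ _ (map_zero _)
  filter_upwards [this.eventually (ev_line h v)] with s hs
  rw [hk, Complex.conj_conj] at hs
  exact hs

theorem fd_ev (hf : DifferentiableAt ℂ f 0) (L : A →L[ℂ] ℂ) (v : V) {e : ℂ → ℂ} {a b c d : ℂ}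
    (he : HasDerivAt e d 0)
    (h : ∀ᶠ s : ℂ in 𝓝 0, L (f (s • v)) = 1 / 2 * (a * (b * (2 * e s - s * c)))) :
    L (fderiv ℂ f 0 v) = 1 / 2 * (a * (b * (2 * d - c))) := by
  have h1 := L.hasFDerivAt.comp_hasDerivAt 0 (der_line hf v)
  have h2 := (((he.const_mul 2).sub ((hasDerivAt_id (0 : ℂ)).mul_const c)).const_mul
    b).const_mul a |>.const_mul (1 / 2 : ℂ)
  rw [one_mul] at h2
  exact h1.unique (h2.congr_of_eventuallyEq h)

end Abs

variable {X : Type} [TopologicalSpace X] [MeasurableSpace X] [BorelSpace X] {G : Geo X}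
  {σ : Scale G} {J κ : Type} [Fintype J] [Fintype κ] {D : Dt G J κ}

theorem val_tr {f : G.R} (h : Fi G σ.ε f) : σ.val (tr σ f) = G.oR f := by
  rw [tr, dif_pos h]; rfl

theorem cj_tr (f : G.R) : σ.cj (tr σ f) = tr σ f := by
  by_cases h : Fi G σ.ε f
  · exact Scale.AA_ext (by rw [σ.val_cj, val_tr h, G.cj_oR])
  · rw [tr, dif_neg h, map_zero]

theorem smul_val (s : ℂ) (f : G.SmC) (p : X) : (s • f).1 p = s * f.1 p := rfl

/-- `ρ^k dr` -/
def drL (G : Geo X) (k : ℕ) : G.SmC →ₗ[ℂ] G.SmC := LinearMap.mulLeft ℂ (G.oR G.ρ ^ k) ∘ₗ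
  (⟨⟨G.SC.dr, Mov.dr_add G.dsC⟩, G.dr_smul⟩ : G.SmC →ₗ[ℂ] G.SmC)

theorem drL_apply (k : ℕ) (f : G.SmC) : drL G k f = G.oR G.ρ ^ k * G.SC.dr f := rfl

theorem oR_ow (k : ℕ) (l : List (Fin 3)) (g : G.R) :
    G.oR (ow G k l g) = G.oR G.ζ * G.jL k l (G.oR g) := by
  rw [ow, map_mul, map_mul, map_pow, G.jL_apply, G.Dw_oR]

theorem oR_od (k : ℕ) (g : G.R) : G.oR (od G k g) = G.oR G.ζ * drL G k (G.oR g) := by
  rw [od, map_mul, map_mul, map_pow, drL_apply, G.dr_oR]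

namespace Dt

theorem val_rt {O : G.R → G.R} {w : Fin 3 → G.R} (L : G.SmC →ₗ[ℂ] G.SmC)
    (hO : ∀ g, G.oR (O g) = G.oR G.ζ * L (G.oR g)) (hf : ∀ j d, Fi G σ.ε (O (D.χ j * w d)))
    (T : Mt J) (c : Fin 3) : σ.val (D.rt σ O w T c) = G.oR G.ζ * L (D.mv T w c) := by
  simp only [rt, mv, map_sum, map_smul, val_tr (hf _ _), hO, Finset.mul_sum, mul_smul_comm]

theorem rt_zero (O : G.R → G.R) (w : Fin 3 → G.R) (c : Fin 3) : D.rt σ O w 0 c = 0 := by
  simp [rt]

theorem cj_rt (O : G.R → G.R) (w : Fin 3 → G.R) (T : Mt J) (c : Fin 3) :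
    σ.cj (D.rt σ O w T c) = D.rt σ O w (star T) c := by
  simp only [rt, map_sum, σ.cj_smul, cj_tr]; rfl

theorem rt_diff (O : G.R → G.R) (w : Fin 3 → G.R) (c : Fin 3) (z : Vr σ J κ) :
    DifferentiableAt ℂ (fun v : Vr σ J κ => D.rt σ O w v.2.2.2.1 c) z := by
  unfold rt
  fun_prop

variable (D σ) in
theorem df (z : Vr σ J κ) : DF (D.fl σ) (fun a => tr σ (G.n a)) z where
  n _ := rfl
  B _ _ := differentiableAt_const _
  j0 := differentiableAt_fst
  j1 a := by change DifferentiableAt ℂ (fun v : Vr σ J κ => v.2.1 a) z; fun_prop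
  j2 a b := by change DifferentiableAt ℂ (fun v : Vr σ J κ => v.2.2.1 a b) z; fun_prop
  V _ := (differentiableAt_const _).add (rt_diff _ _ _ _)
  V1 _ _ := (differentiableAt_const _).add (rt_diff _ _ _ _)
  V2 _ _ _ := (differentiableAt_const _).add (rt_diff _ _ _ _)
  Vd _ := (differentiableAt_const _).add (rt_diff _ _ _ _)
  y1 _ _ := by simp only [fl]; exact rt_diff _ _ _ _
  y2 _ _ _ := by simp only [fl]; exact rt_diff _ _ _ _
  yd _ := by simp only [fl]; exact rt_diff _ _ _ _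
  f0 := by
    change DifferentiableAt ℂ (fun v : Vr σ J κ => ∑ i, v.2.2.2.2 i • tr σ (G.ρ * D.φ i)) z
    fun_prop
  f1 a := by
    change DifferentiableAt ℂ
      (fun v : Vr σ J κ => ∑ i, v.2.2.2.2 i • tr σ (G.ρ ^ 2 * G.S.D a (D.φ i))) z
    fun_prop

theorem fl_cj (v : Vr σ J κ) : D.fl σ (cjV v) = (D.fl σ v).map σ.cj := by
  simp only [fl, Fl.map, cjV, cj_tr, cj_rt, map_add, map_sum, σ.cj_smul]
  rfl

variable (g : D.Good) (o : D.Ok σ.ε)
include g o

theorem bp : (D.fl σ 0).Bp where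
  sh := ⟨Scale.AA_ext (by
      simp only [fl, map_sum, map_mul, val_tr (o.n _), map_one]
      exact G.hypC.nn),
    fun a b => by simp only [fl, G.hyp.B_symm a b], fun b => Scale.AA_ext (by
      simp only [fl, map_sum, map_mul, val_tr (o.n _), val_tr (o.B _ _), map_zero, ← G.SC_B,
        mul_left_comm _ (G.oR G.ρ), ← Finset.mul_sum]
      exact (congrArg _ (G.hypC.n_B b)).trans (mul_zero _))⟩
  nV := Scale.AA_ext (by
    simp only [fl, dot, Prod.snd_zero, Prod.fst_zero, rt_zero, add_zero, map_sum, map_mul,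
      val_tr (o.n _), val_tr (o.Z _), map_one]
    simp only [← map_mul, ← map_sum, g.nZ, map_one])
  j0 := rfl
  j1 _ := rfl
  j2 _ _ := rfl
  y1 _ _ := by simp only [fl]; exact rt_zero _ _ _
  y2 _ _ _ := by simp only [fl]; exact rt_zero _ _ _
  yd _ := by simp only [fl]; exact rt_zero _ _ _
  f0 := by simp [fl]

theorem ev_U : ∀ᶠ v in 𝓝 (0 : Vr σ J κ), (D.fl σ v).U := (df σ D 0).ev_U (bp g o)

theorem hol_FF : Gl.HolAt (D.FF σ) :=
  (ev_U g o).mono fun v h => (((df σ D v).E h).const_mul _).fun_const_smul _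

theorem FF_zero : D.FF σ 0 = 0 := by rw [FF, (bp g o).E, mul_zero, smul_zero]

theorem hol_NL : Gl.HolAt (D.NL σ) :=
  (hol_FF g o).mono fun _ h => h.sub (fderiv ℂ (D.FF σ) 0).differentiableAt

theorem NL_zero : D.NL σ 0 = 0 := by rw [NL, FF_zero g o, map_zero, sub_zero]

theorem fd_NL : HasFDerivAt (D.NL σ) (0 : Vr σ J κ →L[ℂ] σ.AA) 0 := by
  have := (hol_FF g o).self_of_nhds.hasFDerivAt.sub (fderiv ℂ (D.FF σ) 0).hasFDerivAt
  rwa [sub_self] at this

omit g o in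
/-- the projection to the matrices -/
def prT (σ : Scale G) (J κ : Type) [Fintype J] [Fintype κ] : Vr σ J κ →L[ℂ] Mt J :=
  (ContinuousLinearMap.fst ℂ _ _).comp ((ContinuousLinearMap.snd ℂ _ _).comp
    ((ContinuousLinearMap.snd ℂ _ _).comp (ContinuousLinearMap.snd ℂ _ _)))

theorem hol_NQ : Gl.HolAt (D.NQ σ) :=
  (hol_NL g o).mono fun _ h => h.sub ((D.rot σ).comp (prT σ J κ)).differentiableAt

theorem NQ_zero : D.NQ σ 0 = 0 := by
  rw [NQ, NL_zero g o, Prod.snd_zero, Prod.snd_zero, Prod.snd_zero, Prod.fst_zero, map_zero,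
    sub_zero]

theorem fd_NQ : HasFDerivAt (D.NQ σ) (-(D.rot σ).comp (prT σ J κ)) 0 := by
  have := (fd_NL g o).sub ((D.rot σ).comp (prT σ J κ)).hasFDerivAt
  rwa [zero_sub] at this

omit g in
theorem val_rot (T : Mt J) :
    σ.val (D.rot σ T) = G.oR (D.cut * G.ρ) * G.SC.LL (dot (D.yy T) G.SC.n) := by
  simp only [rot, sum_apply, ContinuousLinearMap.smulRight_apply,
    ContinuousLinearMap.comp_apply, ContinuousLinearMap.proj_apply, map_sum, map_smul,
    val_tr (o.rot _ _ _), dot, yy, mv, Finset.sum_mul, smul_mul_assoc, ← G.LLL_apply,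
    Finset.mul_sum, mul_smul_comm]
  rw [Finset.sum_comm]
  simp only [G.LLL_apply, map_mul, ← G.LL_oR, mul_assoc, G.SC_n]

omit g in
theorem map_val {v : Vr σ J κ} : (D.fl σ v).map σ.val.toRingHom =
    { n := G.SC.n
      B := fun a b => G.oR G.ρ * G.SC.B a b
      j0 := σ.val v.1
      j1 := fun a => σ.val (v.2.1 a)
      j2 := fun a b => σ.val (v.2.2.1 a b)
      V := fun c => G.oR (D.Z c) + G.oR G.ζ * D.mv v.2.2.2.1 D.Z c
      V1 := fun a c => G.oR G.ζ * (G.oR G.ρ * G.SC.D a (D.VV v.2.2.2.1 c))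
      V2 := fun a b c => G.oR G.ζ * (G.oR G.ρ ^ 2 * G.SC.D a (G.SC.D b (D.VV v.2.2.2.1 c)))
      Vd := fun c => G.oR G.ζ * (G.oR G.ρ ^ 2 * G.SC.dr (D.VV v.2.2.2.1 c))
      y1 := fun a c => G.oR G.ζ * G.SC.D a (D.yy v.2.2.2.1 c)
      y2 := fun a b c => G.oR G.ζ * (G.oR G.ρ * G.SC.D a (G.SC.D b (D.yy v.2.2.2.1 c)))
      yd := fun c => G.oR G.ζ * (G.oR G.ρ * (G.SC.dr (D.yy v.2.2.2.1 c) - D.yy v.2.2.2.1 c))
      f0 := G.oR G.ρ * D.ph v.2.2.2.2
      f1 := fun a => G.oR G.ρ ^ 2 * G.SC.D a (D.ph v.2.2.2.2) } := by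
  have e : ∀ f, σ.val.toRingHom f = σ.val f := fun _ => rfl
  simp only [Fl.map, fl, Fl.mk.injEq, e, true_and]
  refine ⟨funext fun a => val_tr (o.n a), ?_, ?_, ?_, ?_, ?_, ?_, ?_, ?_, ?_, ?_⟩
  · funext a b
    rw [val_tr (o.B a b), map_mul, G.SC_B]
  · funext c
    rw [map_add, val_tr (o.Z c), val_rt _ (oR_ow _ _) o.V, G.jL_apply, pow_zero, one_mul]; rfl
  · funext a c
    rw [map_add, val_tr (o.Z1 a c), val_rt _ (oR_ow _ _) (o.V1 a), oR_ow, ← mul_add, ← map_add,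
      G.jL_apply, pow_one]; rfl
  · funext a b c
    rw [map_add, val_tr (o.Z2 a b c), val_rt _ (oR_ow _ _) (o.V2 a b), oR_ow, ← mul_add,
      ← map_add, G.jL_apply]; rfl
  · funext c
    rw [map_add, val_tr (o.Zd c), val_rt _ (oR_od _) o.Vd, oR_od, ← mul_add, ← map_add,
      drL_apply]; rfl
  · funext a c
    rw [val_rt _ (oR_ow _ _) (o.y1 a), G.jL_apply, pow_zero, one_mul]; rfl
  · funext a b c
    rw [val_rt _ (oR_ow _ _) (o.y2 a b), G.jL_apply, pow_one]; rfl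
  · funext c
    rw [val_rt (O := fun g => od G 1 g - ow G 1 [] g) (drL G 1 - G.jL 1 []) (fun g => by
      rw [map_sub, oR_od, oR_ow, LinearMap.sub_apply, mul_sub]) o.yd, LinearMap.sub_apply,
      drL_apply, G.jL_apply, pow_one, ← mul_sub, yy, Mov.Dw]
  · simp only [ph, map_sum, map_smul, val_tr (o.f0 _), map_mul, Finset.mul_sum, mul_smul_comm]
  · funext a
    simp only [ph, map_sum, map_smul, val_tr (o.f1 _ _), map_mul, map_pow, ← G.D_oR,
      ← G.DLin_apply, Finset.mul_sum, mul_smul_comm]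

omit g in
theorem map_at {v : Vr σ J κ} {u : G.SmC} {p : X} (h : At v u p) :
    (D.fl σ v).map (σ.evA p).toRingHom =
      (D.tF u v.2.2.2.1 v.2.2.2.2).map (G.evC p).toRingHom := by
  have e : (D.fl σ v).map (σ.evA p).toRingHom =
      ((D.fl σ v).map σ.val.toRingHom).map (G.evC p).toRingHom := rfl
  have hζ : (G.evC p).toRingHom (G.oR G.ζ) = 1 := by rw [evC_eq, G.oR_apply, h.ζ]; rfl
  rw [e, map_val o]
  simp only [Fl.map, tF, tf, Fl.mk.injEq, map_mul _ (G.oR G.ζ), hζ, one_mul, true_and, and_true,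
    map_add _ (G.oR (D.Z _)), VV]
  exact ⟨h.j0, funext h.j1, funext fun a => funext (h.j2 a)⟩

omit g in
theorem ev_FF {v : Vr σ J κ} {u : G.SmC} {p : X} (h : At v u p) (hu : (D.fl σ v).U) :
    D.Nd u v.2.2.2.1 v.2.2.2.2 p ∧ (σ.val (D.FF σ v)).1 p = 1 / 2 * (D.cut.1 p *
      (G.ρ.1 p * (2 * D.EQ u v.2.2.2.1 v.2.2.2.2 p - (G.SC.dr u - u).1 p))) := by
  have h1 := hu.map (σ.evA p).toRingHom
  have h2 := hu.map_E (σ.evA p).toRingHom
  rw [map_at o h] at h1 h2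
  have h3 := (D.nd_iff _ _ _ _).1 h1
  refine ⟨h3, ?_⟩
  rw [← h3.E, h2, ← σ.evA_apply, FF, map_smul, map_mul, σ.evA_apply, val_tr o.cut]
  rfl

omit g o in
theorem _root_.Crest.Agent.N250.Nq.At.smul {v : Vr σ J κ} {u : G.SmC} {p : X} (h : At v u p)
    (s : ℂ) : At (s • v) (s • u) p where
  ζ := h.ζ
  j0 := by
    rw [mul_smul_comm, Prod.smul_fst, map_smul]
    exact congrArg (s * ·) h.j0
  j1 a := by
    rw [G.D_smul, Prod.smul_snd, Prod.smul_fst, Pi.smul_apply, map_smul]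
    exact congrArg (s * ·) (h.j1 a)
  j2 a b := by
    rw [G.D_smul, G.D_smul, mul_smul_comm, Prod.smul_snd, Prod.smul_snd, Prod.smul_fst,
      Pi.smul_apply, Pi.smul_apply, map_smul]
    exact congrArg (s * ·) (h.j2 a b)

theorem line (v : Vr σ J κ) :
    HasDerivAt (fun s : ℂ => D.FF σ (s • v)) (fderiv ℂ (D.FF σ) 0 v) 0 :=
  der_line (hol_FF g o).self_of_nhds v

end Dt

end Crest.Agent.N250.Nq

end
end

-- ▼ part N250/Nq/Main

/-!
# Row 250 (helper71): the core nonlinearity `NL`: holomorphy, values, conjugation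
-/

set_option autoImplicit false
set_option linter.unusedSectionVars false
open Filter Topology Set
open scoped NNReal ComplexConjugate

noncomputable section

namespace Crest.Agent.N250.Nq

open Gc WS

theorem fd_ev' {V A : Type} [NormedAddCommGroup V] [NormedSpace ℂ V] [NormedAddCommGroup A]
    [NormedSpace ℂ A] {f : V → A} (hf : DifferentiableAt ℂ f 0) (L : A →L[ℂ] ℂ) {v : V}
    {γ : ℂ → V} (hγ : ∀ s, γ s = s • v) {P : V → Prop} (hP : ∀ᶠ v in 𝓝 0, P v) {e : ℂ → ℂ}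
    {a b c d : ℂ} (he : HasDerivAt e d 0)
    (h : ∀ s, P (γ s) → L (f (γ s)) = 1 / 2 * (a * (b * (2 * e s - s * c)))) :
    L (fderiv ℂ f 0 v) = 1 / 2 * (a * (b * (2 * d - c))) :=
  fd_ev hf L v he ((ev_line hP v).mono fun s hs => by rw [← hγ] at hs ⊢; exact h s hs)

variable {X : Type} [TopologicalSpace X] [MeasurableSpace X] [BorelSpace X] {G : Geo X}
  {σ : Scale G} {J κ : Type} [Fintype J] [Fintype κ] {D : Dt G J κ}

namespace Dt

variable (g : D.Good) (o : D.Ok σ.ε)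
include g o

theorem ev_fd {v : Vr σ J κ} {u : G.SmC} {p : X} (h : At v u p) :
    (σ.val (fderiv ℂ (D.FF σ) 0 v)).1 p = 1 / 2 * (D.cut.1 p * (G.ρ.1 p *
      (2 * -((G.SC.LL u).1 p + (G.SC.LL (dot (D.yy v.2.2.2.1) G.SC.n)).1 p + (D.ph v.2.2.2.2).1 p)
        - (G.SC.dr u - u).1 p))) := by
  have h0 := (hol_FF g o).self_of_nhds
  have h1 := (D.dv_EQ u v.2.2.2.1 v.2.2.2.2 p g.nZ).der
  refine (σ.evL_apply p _).symm.trans
    (fd_ev' h0 (σ.evL p) (γ := fun s => s • v) (fun _ => rfl) (ev_U g o) h1 fun s hs => ?_)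
  have := (ev_FF o (h.smul s) hs).2
  rw [G.dr_smul, ← smul_sub, smul_val] at this
  simp only [Prod.smul_snd, Prod.smul_fst] at this
  rw [σ.evL_apply]
  exact this

theorem ev_NL : ∀ᶠ v in 𝓝 (0 : Vr σ J κ), ∀ u p, At v u p → D.Nd u v.2.2.2.1 v.2.2.2.2 p ∧
    (σ.val (D.NL σ v)).1 p = D.cut.1 p * G.ρ.1 p * (D.EQ u v.2.2.2.1 v.2.2.2.2 p + (G.SC.LL u).1 p
      + (G.SC.LL (dot (D.yy v.2.2.2.1) G.SC.n)).1 p + (D.ph v.2.2.2.2).1 p) :=
  (ev_U g o).mono fun v hv u p h => ⟨(ev_FF o h hv).1, by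
    rw [← σ.evA_apply, NL, map_sub, σ.evA_apply, σ.evA_apply, (ev_FF o h hv).2, ev_fd g o h]
    ring⟩

theorem ev_NQ : ∀ᶠ v in 𝓝 (0 : Vr σ J κ), ∀ u p, At v u p → D.Nd u v.2.2.2.1 v.2.2.2.2 p ∧
    (σ.val (D.NQ σ v)).1 p = D.cut.1 p * G.ρ.1 p * (D.EQ u v.2.2.2.1 v.2.2.2.2 p + (G.SC.LL u).1 p
      + (D.ph v.2.2.2.2).1 p) :=
  (ev_NL g o).mono fun v hv u p h => ⟨(hv u p h).1, by
    rw [← σ.evA_apply, NQ, map_sub, σ.evA_apply, σ.evA_apply, (hv u p h).2, val_rot o,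
      ← evC_eq p (_ * _), map_mul, map_mul, map_mul]
    simp only [evC_eq, G.oR_apply]
    ring⟩

theorem NL_off (v : Vr σ J κ) {p : X} (hp : D.cut.1 p = 0) : (σ.val (D.NL σ v)).1 p = 0 := by
  have h0 : ∀ v, σ.evL p (D.FF σ v) = 0 := fun v => by
    rw [σ.evL_apply, ← σ.evA_apply, FF, map_smul, map_mul, σ.evA_apply, val_tr o.cut, G.oR_apply,
      hp]
    simp
  have h1 := (σ.evL p).hasFDerivAt.comp_hasDerivAt 0 (line g o v)
  have h2 : σ.evL p (fderiv ℂ (D.FF σ) 0 v) = 0 :=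
    h1.unique ((hasDerivAt_const _ _).congr_of_eventuallyEq (.of_forall fun s => h0 _))
  rw [← σ.evL_apply, NL, map_sub, h0, h2, sub_zero]

theorem NQ_off (v : Vr σ J κ) {p : X} (hp : D.cut.1 p = 0) : (σ.val (D.NQ σ v)).1 p = 0 := by
  rw [← σ.evA_apply, NQ, map_sub, σ.evA_apply, σ.evA_apply, NL_off g o v hp, val_rot o,
    ← evC_eq p (_ * _), map_mul, map_mul, map_mul, evC_eq, G.oR_apply, hp]
  simp

theorem cj_FF : ∀ᶠ v in 𝓝 (0 : Vr σ J κ), D.FF σ (cjV v) = σ.cj (D.FF σ v) :=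
  (ev_U g o).mono fun v h => by
    rw [FF, FF, fl_cj, h.map_E, σ.cj_smul, map_mul, cj_tr, map_div₀, map_one, map_ofNat]

omit g o in
theorem cjV_smul (s : ℂ) (v : Vr σ J κ) : cjV (s • v) = conj s • cjV v := by
  simp only [cjV, Prod.smul_fst, Prod.smul_snd, Pi.smul_apply, σ.cj_smul, star_smul, Prod.smul_mk]
  rfl

theorem cj_fd (v : Vr σ J κ) : fderiv ℂ (D.FF σ) 0 (cjV v) = σ.cj (fderiv ℂ (D.FF σ) 0 v) :=
  fd_cj (hol_FF g o).self_of_nhds σ.cjL cjV_smul (cj_FF g o) v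

theorem cj_NL : ∀ᶠ v in 𝓝 (0 : Vr σ J κ), D.NL σ (cjV v) = σ.cj (D.NL σ v) :=
  (cj_FF g o).mono fun v h => by rw [NL, NL, h, cj_fd g o, map_sub]

omit g o in
theorem cj_rot (T : Mt J) : D.rot σ (star T) = σ.cj (D.rot σ T) := by
  simp only [rot, sum_apply, ContinuousLinearMap.smulRight_apply,
    ContinuousLinearMap.comp_apply, ContinuousLinearMap.proj_apply, map_sum, σ.cj_smul, cj_tr]
  rfl

theorem cj_NQ : ∀ᶠ v in 𝓝 (0 : Vr σ J κ), D.NQ σ (cjV v) = σ.cj (D.NQ σ v) :=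
  (cj_NL g o).mono fun v h => by rw [NQ, NQ, h, map_sub, ← cj_rot]; rfl



end Dt

theorem at_jets {κ' : Type} [Fintype κ'] {ψ : κ' → G.R} (Jt : σ.Jets ψ) (ξ : σ.AA × (κ' → ℂ))
    (T : Mt J) (c : κ → ℂ) {p : X} (hp : G.ζ.1 p = 1) :
    At ((Jt.J0 ξ, fun a => Jt.J1 a ξ, fun a b => Jt.J2 a b ξ, T, c) : Vr σ J κ) (σ.wG ψ ξ) p := by
  have hζ : (G.evC p).toRingHom (G.oR G.ζ) = 1 := by rw [evC_eq, G.oR_apply, hp]; rfl
  refine ⟨hp, ?_, fun a => ?_, fun a b => ?_⟩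
  · rw [Jt.val0, map_mul, mul_assoc, ← evC_eq p (G.oR G.ζ * _), map_mul, hζ, one_mul, evC_eq]
  · rw [Jt.val1, ← evC_eq p (G.oR G.ζ * _), map_mul, hζ, one_mul, evC_eq]
  · rw [Jt.val2, map_mul, mul_assoc, ← evC_eq p (G.oR G.ζ * _), map_mul, hζ, one_mul, evC_eq]

end Crest.Agent.N250.Nq

end
namespace Crest.Agent.N250.Nq.Dt.Nd
end Crest.Agent.N250.Nq.Dt.Nd
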